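import Vale.Agent.P283R.Gr.Eig
import Mathlib.GroupTheory.SemidirectProduct
import Mathlib.Analysis.Complex.Polynomial.Basic

/-!
# P283R, toric quotients: Jordan's theorem for projective actions on spaces of functions
-/

open Set

namespace Vale.Agent.P283R.Qt

section

variable {L : Type} [AddCommGroup L] [Module ℂ L] {W W' : Submodule ℂ L} {ι ι' : Type} [Fintype ι]
  [Fintype ι'] {x : ι → L} {x' : ι' → L}

/-- comparison of dimensions modulo subspaces -/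
theorem card_le (f : L →ₗ[ℂ] L) (hW : ∀ w, f w ∈ W' → w ∈ W)
    (ind : ∀ c : ι → ℂ, ∑ i, c i • x i ∈ W → c = 0)
    (h : ∀ i, f (x i) ∈ W' ⊔ Submodule.span ℂ (range x')) : Fintype.card ι ≤ Fintype.card ι' := by
  classical
  have li : LinearIndependent ℂ fun i => W'.mkQ (f (x i)) :=
    Fintype.linearIndependent_iff.2 fun c hc => congrFun (ind c (hW _ (by
      rw [← Submodule.Quotient.mk_eq_zero, ← Submodule.mkQ_apply, ← hc]
      simp)))
  refine (linearIndependent_le_span_aux' _ li (range fun i => W'.mkQ (x' i)) ?_).trans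
    (Fintype.card_range_le _)
  rintro _ ⟨i, rfl⟩
  obtain ⟨w, hw, s, hs, e⟩ := Submodule.mem_sup.1 (h i)
  have := Submodule.mem_map_of_mem (f := W'.mkQ) hs
  rw [Submodule.map_span, ← range_comp] at this
  change W'.mkQ (f (x i)) ∈ _
  rw [← e, map_add, Submodule.mkQ_apply W' w, (Submodule.Quotient.mk_eq_zero _).2 hw, zero_add]
  exact this

theorem not_mem {z : ι → L} (ind : ∀ c : ι → ℂ, ∑ i, c i • x i ∈ W → c = 0)
    (h : ∀ i, x i ∈ W ⊔ Submodule.span ℂ (range z)) (j : ι) : z j ∉ W := fun k => by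
  classical
  have le : W ⊔ Submodule.span ℂ (range z) ≤
      W ⊔ Submodule.span ℂ (range fun i : {i // i ≠ j} => z i) :=
    sup_le le_sup_left (Submodule.span_le.2 (by
      rintro _ ⟨l, rfl⟩
      by_cases e : l = j
      · exact Submodule.mem_sup_left (e ▸ k)
      · exact Submodule.mem_sup_right (Submodule.subset_span ⟨⟨l, e⟩, rfl⟩)))
  have := card_le (x' := fun i : {i // i ≠ j} => z i) .id (fun _ a => a) ind fun i => le (h i)
  exact this.not_gt (Fintype.card_subtype_lt (x := j) fun a => a rfl)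

end

variable {L Γ : Type} [Field L] [Algebra ℂ L] [Group Γ]

/-- the maps `x ↦ φ * σ x` with `Val σ φ` form a projective action on `U / W` -/
structure Prj (α : Γ →* (L ≃ₐ[ℂ] L)) (Val : Γ → L → Prop) (U W : Submodule ℂ L) : Prop where
  le : W ≤ U
  ex : ∀ σ, ∃ φ, Val σ φ
  ne : ∀ {σ φ}, Val σ φ → φ ≠ 0
  mul : ∀ {σ τ φ ψ}, Val σ φ → Val τ ψ → Val (σ * τ) (φ * α σ ψ)
  smul : ∀ {σ φ} {c : ℂ}, Val σ φ → c ≠ 0 → Val σ (c • φ)
  uni : ∀ {σ φ ψ}, Val σ φ → Val σ ψ → ∃ c : ℂ, ψ = c • φ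
  mU : ∀ {σ φ}, Val σ φ → ∀ x ∈ U, φ * α σ x ∈ U
  mW : ∀ {σ φ}, Val σ φ → ∀ x ∈ W, φ * α σ x ∈ W

variable {α : Γ →* (L ≃ₐ[ℂ] L)} {Val : Γ → L → Prop} {U W : Submodule ℂ L}

theorem Prj.one (h : Prj α Val U W) : Val 1 1 := by
  obtain ⟨φ, p⟩ := h.ex 1
  have q := h.mul p p
  rw [one_mul, map_one, AlgEquiv.one_apply] at q
  obtain ⟨c, e⟩ := h.uni p q
  have f : φ = c • (1 : L) := mul_right_cancel₀ (h.ne p) (by rw [e, smul_mul_assoc, one_mul])
  have c0 : c ≠ 0 := fun z => h.ne p (by rw [f, z, zero_smul])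
  have := h.smul p (inv_ne_zero c0)
  rwa [f, inv_smul_smul₀ c0] at this

theorem Prj.inv (h : Prj α Val U W) {σ : Γ} {φ : L} (p : Val σ φ) : Val σ⁻¹ (α σ⁻¹ φ⁻¹) := by
  obtain ⟨ψ, q⟩ := h.ex σ⁻¹
  have k := h.mul q p
  rw [inv_mul_cancel] at k
  obtain ⟨c, e⟩ := h.uni h.one k
  have c0 : c ≠ 0 := fun z => h.ne k (by rw [e, z, zero_smul])
  have a0 : α σ⁻¹ φ ≠ 0 := (map_ne_zero _).2 (h.ne p)
  have := h.smul q (inv_ne_zero c0)
  rwa [← mul_inv_cancel_right₀ a0 ψ, e, smul_mul_assoc, one_mul, inv_smul_smul₀ c0,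
    ← map_inv₀] at this

/-- a finite group which covers the projective action -/
theorem Prj.cover [Finite Γ] (h : Prj α Val U W) : ∃ (E : Type) (_ : Group E) (_ : Finite E)
    (p : E →* Γ) (ρ : E →* (L →ₗ[ℂ] L)), Function.Surjective p ∧
      ∀ g, ∃ φ, Val (p g) φ ∧ ∀ x, ρ g x = φ * α (p g) x := by
  classical
  have := Fintype.ofFinite Γ
  choose φ hφ using h.ex
  let Φ := ∏ τ, φ τ
  have Φ0 : Φ ≠ 0 := Finset.prod_ne_zero_iff.2 fun τ _ => h.ne (hφ τ)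
  let a : Γ →* MulAut Lˣ :=
    { toFun := fun g => Units.mapEquiv (α g).toMulEquiv
      map_one' := by ext; simp
      map_mul' := fun _ _ => by ext; simp }
  let E : Subgroup (Lˣ ⋊[a] Γ) :=
    { carrier := {g | Val g.right g.left ∧ (g.left : L) ^ Fintype.card Γ * α g.right Φ = Φ}
      one_mem' := ⟨h.one, by simp⟩
      mul_mem' := fun {g k} p q => ⟨h.mul p.1 q.1, by
        change ((g.left : L) * α g.right k.left) ^ _ * α (g.right * k.right) Φ = Φ
        rw [map_mul, AlgEquiv.mul_apply, mul_pow, mul_assoc, ← map_pow, ← map_mul, q.2, p.2]⟩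
      inv_mem' := fun {g} p => ⟨by simpa [a] using h.inv p.1, by
        have e := congrArg (α g.right⁻¹) p.2
        rw [map_mul, ← AlgEquiv.mul_apply, ← map_mul α, inv_mul_cancel, map_one,
          AlgEquiv.one_apply, map_pow] at e
        change (α g.right⁻¹ (g.left⁻¹ : Lˣ)) ^ _ * α g.right⁻¹ Φ = Φ
        rw [← e, ← mul_assoc, ← mul_pow, ← map_mul, Units.inv_mul, map_one, one_pow, one_mul]⟩ }
  have fin : Finite E := Finite.of_injective (fun g : E => (⟨g.1.right, g.1.left, by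
      rw [Multiset.mem_toFinset, Polynomial.mem_nthRoots Fintype.card_pos,
        eq_div_iff ((map_ne_zero _).2 Φ0)]
      exact g.2.2⟩ : Σ σ : Γ, (Polynomial.nthRoots (Fintype.card Γ) (Φ / α σ Φ)).toFinset))
    fun g k e => Subtype.ext (SemidirectProduct.ext
      (Units.ext (congrArg (fun s : Σ σ : Γ, (Polynomial.nthRoots (Fintype.card Γ)
        (Φ / α σ Φ)).toFinset => (s.2 : L)) e)) (congrArg Sigma.fst e))
  let ρ : E →* (L →ₗ[ℂ] L) :=
    { toFun := fun g => LinearMap.mulLeft ℂ (g.1.left : L) ∘ₗ (α g.1.right).toLinearMap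
      map_one' := by ext; simp
      map_mul' := fun g k => by
        ext x
        change ((g.1.left : L) * α g.1.right k.1.left) * α (g.1.right * k.1.right) x =
          g.1.left * α g.1.right (k.1.left * α k.1.right x)
        rw [map_mul, AlgEquiv.mul_apply, map_mul, mul_assoc] }
  refine ⟨E, inferInstance, fin, SemidirectProduct.rightHom.comp E.subtype, ρ, fun σ => ?_,
    fun g => ⟨_, g.2.1, fun _ => rfl⟩⟩
  choose c hc using fun τ => h.uni (hφ (σ * τ)) (h.mul (hφ σ) (hφ τ))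
  have e : φ σ ^ Fintype.card Γ * α σ Φ = (∏ τ, c τ) • Φ := by
    rw [map_prod, ← Finset.card_univ, ← Finset.prod_const, ← Finset.prod_mul_distrib]
    simp only [hc]
    rw [Finset.prod_smul]
    exact congrArg _ (Equiv.prod_comp (Equiv.mulLeft σ) φ)
  have c0 : ∏ τ, c τ ≠ 0 := fun z => mul_ne_zero (pow_ne_zero _ (h.ne (hφ σ)))
    ((map_ne_zero _).2 Φ0) (by rw [e, z, zero_smul])
  obtain ⟨b, hb⟩ := IsAlgClosed.exists_pow_nat_eq (∏ τ, c τ)⁻¹ (Fintype.card_pos (α := Γ))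
  have b0 : b ≠ 0 := fun z => inv_ne_zero c0 (by rw [← hb, z, zero_pow Fintype.card_ne_zero])
  have v := h.smul (hφ σ) b0
  refine ⟨⟨⟨Units.mk0 _ (h.ne v), σ⟩, v, ?_⟩, rfl⟩
  change (b • φ σ) ^ _ * α σ Φ = Φ
  rw [smul_pow, smul_mul_assoc, e, hb, inv_smul_smul₀ c0]

/-- **Jordan for projective actions** -/
theorem prj (N : ℕ) : ∃ J : ℕ, 0 < J ∧ ∀ (L Γ : Type) [Field L] [Algebra ℂ L] [Group Γ] [Finite Γ]
    (α : Γ →* (L ≃ₐ[ℂ] L)) (Val : Γ → L → Prop) (U W : Submodule ℂ L) (ι : Type) [Fintype ι]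
    (x : ι → L), Prj α Val U W → Fintype.card ι ≤ N → (∀ i, x i ∈ U) →
    U ≤ W ⊔ Submodule.span ℂ (range x) → (∀ c : ι → ℂ, ∑ i, c i • x i ∈ W → c = 0) →
    ∃ (A : Subgroup Γ) (z : ι → L), A.index ≤ (if Fintype.card ι = 1 then 1 else J) ∧
      (∀ i, z i ∈ U ∧ z i ∉ W) ∧ U ≤ W ⊔ Submodule.span ℂ (range z) ∧
      ∀ σ ∈ A, ∀ i, ∃ φ, Val σ φ ∧ φ * α σ (z i) = z i := by
  classical
  choose J hJ key using Gr.jordan_mod
  refine ⟨(Finset.range (N + 1)).sup J, (hJ 0).trans_le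
    (Finset.le_sup (f := J) (Finset.mem_range.2 N.succ_pos)), ?_⟩
  intro L Γ _ _ _ _ α Val U W ι _ x h hN hx hU ind
  obtain ⟨E, _, _, p, ρ, hp, hρ⟩ := h.cover
  have rU : ∀ g, ∀ u ∈ U, ρ g u ∈ U := fun g u hu => let ⟨_, a, b⟩ := hρ g; b u ▸ h.mU a u hu
  have rW : ∀ g, ∀ u ∈ W, ρ g u ∈ W := fun g u hu => let ⟨_, a, b⟩ := hρ g; b u ▸ h.mW a u hu
  suffices H : ∃ (A : Subgroup E) (z : ι → L), A.index ≤ (if Fintype.card ι = 1 then 1 else
      (Finset.range (N + 1)).sup J) ∧ (∀ i, z i ∈ U) ∧ U ≤ W ⊔ Submodule.span ℂ (range z) ∧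
      ∀ g ∈ A, ∀ i, ∃ c : ℂ, ρ g (z i) = c • z i by
    obtain ⟨A, z, a1, a2, a3, a4⟩ := H
    have nw := not_mem ind fun i => a3 (hx i)
    refine ⟨A.map p, z, (Nat.le_of_dvd (Nat.pos_of_ne_zero A.index_ne_zero_of_finite)
      (A.index_map_dvd hp)).trans a1, fun i => ⟨a2 i, nw i⟩, a3, ?_⟩
    rintro _ ⟨g, hg, rfl⟩ i
    obtain ⟨φ, v, e⟩ := hρ g
    obtain ⟨c, k⟩ := a4 g hg i
    have c0 : c ≠ 0 := fun z0 => mul_ne_zero (h.ne v) ((map_ne_zero (α (p g))).2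
      fun e' : z i = 0 => nw i (e' ▸ zero_mem W)) (by rw [← e, k, z0, zero_smul])
    exact ⟨_, h.smul v (inv_ne_zero c0), by rw [smul_mul_assoc, ← e, k, inv_smul_smul₀ c0]⟩
  split_ifs with o
  · obtain ⟨j, hj⟩ := Fintype.card_eq_one_iff.1 o
    have r : ∀ z : ι → L, range z = {z j} := fun z =>
      Set.ext fun y => ⟨fun ⟨i, e⟩ => by rw [← e, hj i]; rfl, fun e => ⟨j, e.symm⟩⟩
    obtain ⟨z, z1, χ, z2⟩ := Gr.lift_eig ρ W rW (x j) fun g => by
      obtain ⟨w, hw, s, hs, e⟩ := Submodule.mem_sup.1 (hU (rU g _ (hx j)))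
      rw [r] at hs
      obtain ⟨c, rfl⟩ := Submodule.mem_span_singleton.1 hs
      exact ⟨c, by rw [← e, add_sub_cancel_right]; exact hw⟩
    refine ⟨⊤, fun _ => z, Subgroup.index_top.le, fun _ => ?_, hU.trans (sup_le le_sup_left ?_),
      fun g _ _ => ⟨_, z2 g⟩⟩
    · simpa using U.add_mem (h.le z1) (hx j)
    · rw [r, r, Submodule.span_singleton_le_iff_mem]
      simpa using sub_mem (Submodule.mem_sup_right (S := W) (Submodule.mem_span_singleton_self z))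
        (Submodule.mem_sup_left z1)
  · let e := Fintype.equivFin ι
    obtain ⟨A, z, χ, a1, a2, a3, a4⟩ := key _ E L ρ U W (x ∘ e.symm) h.le rU rW (fun i => hx _)
      (by rwa [e.symm.surjective.range_comp])
    exact ⟨A, z ∘ e, a1.trans (Finset.le_sup (f := J) (Finset.mem_range.2 (by omega))),
      fun i => a2 _, by rwa [e.surjective.range_comp], fun g hg i => ⟨_, a4 (e i) ⟨g, hg⟩⟩⟩

end Vale.Agent.P283R.Qt
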