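import Mathlib.Data.ZMod.Basic
import Mathlib.GroupTheory.Index
import Mathlib.LinearAlgebra.Matrix.DotProduct
import Mathlib.LinearAlgebra.Dimension.Constructions
import Mathlib.LinearAlgebra.Dimension.Finite
import Mathlib.LinearAlgebra.FreeModule.Finite.Basic
import Mathlib.Tactic

/-!
# P283R, toric quotients: permutations of the rays
-/

open Set

namespace Vale.Agent.P283R.Qt

/-- **Minkowski** for permutations -/
theorem mink {ι : Type} [Fintype ι] (M : Set (ι → ℤ)) (π : Equiv.Perm ι)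
    (h : ∀ m ∈ M, ∃ m' ∈ M, ∀ i, m (π i) - m i = 3 * m' i) : ∀ m ∈ M, ∀ i, m (π i) = m i := by
  have key : ∀ n : ℕ, ∀ m ∈ M, ∑ i, (m i).natAbs = n → ∀ i, m (π i) = m i := by
    intro n
    induction n using Nat.strong_induction_on with
    | _ n ih =>
      intro m hm hn
      obtain ⟨m', hm', e⟩ := h m hm
      have b : 3 * ∑ i, (m' i).natAbs ≤ 2 * n := by
        rw [Finset.mul_sum, two_mul]
        have : ∑ i, (m (π i)).natAbs = n := (Equiv.sum_comp π fun i => (m i).natAbs).trans hn
        calc _ ≤ ∑ i, ((m (π i)).natAbs + (m i).natAbs) :=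
              Finset.sum_le_sum fun i _ => by have := e i; omega
          _ = _ := by rw [Finset.sum_add_distrib, this, hn]
      rcases Nat.eq_zero_or_pos n with rfl | p
      · have z : ∀ i, m i = 0 := fun i =>
          Int.natAbs_eq_zero.1 (Finset.sum_eq_zero_iff.1 hn i (Finset.mem_univ _))
        intro i
        rw [z, z]
      have f := ih _ (by omega) m' hm' rfl
      have s : ∑ i, m' i * (3 * m' i) = 0 := by
        have : ∑ i, m' (π i) * m (π i) = ∑ i, m' i * m i := Equiv.sum_comp π fun i => m' i * m i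
        simp only [← e, mul_sub, Finset.sum_sub_distrib]
        simp only [f] at this
        rw [this, sub_self]
      intro i
      have z := (Finset.sum_eq_zero_iff_of_nonneg fun i _ => by nlinarith [mul_self_nonneg (m' i)]).1
        s i (Finset.mem_univ _)
      have z' : m' i = 0 := by nlinarith [mul_self_nonneg (m' i)]
      have := e i
      omega
  exact fun m hm => key _ m hm rfl

/-- an action of the group on the classes `ℤ^N / M`; `E σ a a'` says `σ [a] = [a']` -/
structure Act {d N : ℕ} {Γ : Type} [Group Γ] (v : Fin N → Fin d → ℤ)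
    (E : Γ → (Fin N → ℤ) → (Fin N → ℤ) → Prop) : Prop where
  tot : ∀ σ a, ∃ a', E σ a a'
  one : ∀ a a', E 1 a a' ↔ ∃ u : Fin d → ℤ, ∀ i, a i = a' i + u ⬝ᵥ v i
  mul : ∀ {σ τ a a' a''}, E σ a a' → E τ a' a'' → E (τ * σ) a a''
  add : ∀ {σ a a' b b'}, E σ a a' → E σ b b' → E σ (a + b) (a' + b')
  neg : ∀ {σ a a'}, E σ a a' → E σ (-a) (-a')
  card : ∀ {σ a a'}, E σ a a' → Nat.card {i // E 1 (Pi.single i 1) a} =
    Nat.card {i // E 1 (Pi.single i 1) a'}

namespace Act

variable {d N : ℕ} {Γ : Type} [Group Γ] {v : Fin N → Fin d → ℤ}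
  {E : Γ → (Fin N → ℤ) → (Fin N → ℤ) → Prop} (h : Act v E) {σ τ : Γ} {a a' : Fin N → ℤ}

include h

theorem refl (a : Fin N → ℤ) : E 1 a a := (h.one a a).2 ⟨0, fun i => by simp⟩

theorem symm (e : E 1 a a') : E 1 a' a :=
  let ⟨u, k⟩ := (h.one _ _).1 e
  (h.one _ _).2 ⟨-u, fun i => by rw [k, neg_dotProduct]; ring⟩

theorem trans {a'' : Fin N → ℤ} (e : E 1 a a') (e' : E 1 a' a'') : E 1 a a'' := by
  simpa using h.mul e e'

theorem inv (e : E σ a a') : E σ⁻¹ a' a := by
  obtain ⟨b, k⟩ := h.tot σ⁻¹ a'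
  have l := h.mul e k
  rw [inv_mul_cancel] at l
  simpa using h.mul k (h.symm l)

theorem zero (σ : Γ) : E σ 0 0 := by
  obtain ⟨b, k⟩ := h.tot σ 0
  simpa using h.add k (h.neg k)

theorem smul (e : E σ a a') (n : ℤ) : E σ (n • a) (n • a') := by
  induction n using Int.induction_on with
  | zero => simpa using h.zero σ
  | succ n ih => rw [add_smul, add_smul, one_smul, one_smul]; exact h.add ih e
  | pred n ih =>
    rw [sub_smul, sub_smul, one_smul, one_smul, sub_eq_add_neg, sub_eq_add_neg]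
    exact h.add ih (h.neg e)

theorem lin {π : Equiv.Perm (Fin N)} (e : ∀ i, E σ (Pi.single i 1) (Pi.single (π i) 1))
    (m : Fin N → ℤ) : E σ m fun i => m (π⁻¹ i) := by
  have k : ∀ s : Finset (Fin N), E σ (∑ i ∈ s, m i • Pi.single i (1 : ℤ))
      (∑ i ∈ s, m i • Pi.single (π i) (1 : ℤ)) := fun s => by
    induction s using Finset.induction_on with
    | empty => simpa using h.zero σ
    | insert i s hi ih =>
      rw [Finset.sum_insert hi, Finset.sum_insert hi]
      exact h.add (h.smul (e i) _) ih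
  convert k Finset.univ using 1
  · funext j
    simp [Finset.sum_apply, Pi.single_apply]
  · funext j
    simp only [Finset.sum_apply, Pi.smul_apply, Pi.single_apply, smul_eq_mul, mul_ite, mul_one,
      mul_zero]
    rw [Finset.sum_eq_single (π⁻¹ j) (fun i _ c => if_neg fun z => c (by simp [z])) (by simp)]
    simp

theorem pres {π : Equiv.Perm (Fin N)} (e : ∀ i, E σ (Pi.single i 1) (Pi.single (π i) 1))
    (u : Fin d → ℤ) : ∃ u' : Fin d → ℤ, ∀ i, u ⬝ᵥ v (π⁻¹ i) = u' ⬝ᵥ v i := by
  have a := h.lin e fun i => u ⬝ᵥ v i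
  have b : E 1 (fun i => u ⬝ᵥ v i) 0 := (h.one _ _).2 ⟨u, fun i => by simp⟩
  have c := h.mul (h.mul (h.inv a) b) (h.zero σ)
  rw [one_mul, mul_inv_cancel] at c
  obtain ⟨u', k⟩ := (h.one _ _).1 c
  exact ⟨u', fun i => by simpa using k i⟩

theorem perm (σ : Γ) :
    ∃ π : Equiv.Perm (Fin N), ∀ i, E σ (Pi.single i 1) (Pi.single (π i) 1) := by
  classical
  let s : Setoid (Fin N → ℤ) := ⟨E 1, h.refl, h.symm, h.trans⟩
  choose a ha using fun i => h.tot σ (Pi.single i (1 : ℤ))
  let f : Fin N → Quotient s := fun i => Quotient.mk s (a i)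
  let g : Fin N → Quotient s := fun i => Quotient.mk s (Pi.single i 1)
  have e : ∀ c, Nonempty ({i // f i = c} ≃ {i // g i = c}) := fun c => by
    obtain ⟨b, rfl⟩ := c.exists_rep
    obtain ⟨b₀, k⟩ := h.tot σ⁻¹ b
    have k' : E σ b₀ b := by simpa using h.inv k
    refine Finite.card_eq.1 (((Nat.card_congr (Equiv.subtypeEquivRight fun i => ?_)).trans
      (h.card k')).trans (Nat.card_congr (Equiv.subtypeEquivRight fun i =>
        (Quotient.eq (r := s)).symm)))
    refine Quotient.eq.trans ⟨fun l => ?_, fun l => ?_⟩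
    · simpa using h.mul (h.mul (ha i) l) k
    · have := h.mul (h.mul (h.inv (ha i)) l) k'
      rwa [one_mul, mul_inv_cancel] at this
  refine ⟨Equiv.ofFiberEquiv fun c => (e c).some, fun i => ?_⟩
  have l : E 1 _ _ := Quotient.eq.1 (Equiv.ofFiberEquiv_map (fun c => (e c).some) i)
  simpa using h.mul (ha i) (h.symm l)

/-- **a subgroup of bounded index fixes all classes** -/
theorem prm (hv : Function.Injective v) :
    ∃ A : Subgroup Γ, 0 < A.index ∧ A.index ≤ 3 ^ (d * d) ∧ ∀ σ ∈ A, ∀ a, E σ a a := by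
  classical
  let A : Subgroup Γ :=
    { carrier := {σ | ∀ a, E σ a a}
      one_mem' := h.refl
      mul_mem' := fun p q a => h.mul (q a) (p a)
      inv_mem' := fun p a => h.inv (p a) }
  choose π hπ using h.perm
  choose w hw using fun σ j => h.pres (hπ σ) (Pi.single j (1 : ℤ))
  let c : Γ → Fin d → Fin d → ZMod 3 := fun σ j l => w σ j l
  have ex : ∀ σ (u : Fin d → ℤ) i, u ⬝ᵥ v ((π σ)⁻¹ i) = (∑ j, u j • w σ j) ⬝ᵥ v i := fun σ u i => by
    rw [sum_dotProduct]
    simp only [smul_dotProduct, ← hw, single_dotProduct, one_mul, smul_eq_mul]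
    rfl
  have key : ∀ σ τ, c σ = c τ → σ⁻¹ * τ ∈ A := fun σ τ e => by
    have dv : ∀ j l, ∃ z : ℤ, w σ j l - w τ j l = 3 * z := fun j l =>
      (ZMod.intCast_eq_intCast_iff_dvd_sub _ _ 3).1 (congrFun (congrFun e j) l).symm
    choose z hz using dv
    have m := mink (range fun (u : Fin d → ℤ) i => u ⬝ᵥ v i) ((π σ)⁻¹ * π τ) (by
      rintro _ ⟨u, rfl⟩
      obtain ⟨u', k⟩ := h.pres (σ := τ⁻¹) (π := (π τ)⁻¹)
        (fun i => by simpa using h.inv (hπ τ ((π τ)⁻¹ i))) (∑ j, u j • z j)
      refine ⟨_, ⟨u', rfl⟩, fun i => ?_⟩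
      have a := ex τ u (π τ i)
      rw [show (π τ)⁻¹ (π τ i) = i from (π τ).symm_apply_apply i] at a
      simp only [Equiv.Perm.mul_apply]
      rw [ex σ u, a, ← k, inv_inv, ← sub_dotProduct, ← Finset.sum_sub_distrib, ← smul_eq_mul,
        ← smul_dotProduct, Finset.smul_sum]
      refine congrArg (· ⬝ᵥ _) (Finset.sum_congr rfl fun j _ => funext fun l => ?_)
      simp only [Pi.sub_apply, Pi.smul_apply, smul_eq_mul]
      rw [← mul_sub, hz]
      ring)
    have eq : ∀ i, (π σ)⁻¹ (π τ i) = i := fun i => hv (funext fun j => by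
      simpa using m _ ⟨Pi.single j 1, rfl⟩ i)
    intro a
    have := h.lin (σ := σ⁻¹ * τ) (π := 1) (fun i => by
      have k := h.inv (hπ σ i)
      rw [show π σ i = π τ i from ((π σ).symm_apply_eq.1 (eq i)).symm] at k
      exact h.mul (hπ τ i) k) a
    simpa using this
  have inj : Function.Injective fun q : Γ ⧸ A => c q.out := fun q q' e => by
    rw [← q.out_eq', ← q'.out_eq']
    exact QuotientGroup.eq.2 (key _ _ e)
  have := Finite.of_injective _ inj
  refine ⟨A, Nat.card_pos, (Nat.card_le_card_of_injective _ inj).trans_eq ?_, fun σ p => p⟩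
  simp [pow_mul]

end Act

/-- **at most `d` rays are not the representatives of their classes** -/
theorem cnb {d N : ℕ} (v : Fin N → Fin d → ℤ) (rep : Fin N → Fin N)
    (hr : ∀ j, rep (rep j) = rep j) (h : ∀ j, ∃ u : Fin d → ℤ, ∀ i,
      (Pi.single j 1 : Fin N → ℤ) i = (Pi.single (rep j) 1 : Fin N → ℤ) i + u ⬝ᵥ v i) :
    Nat.card {j // rep j ≠ j} ≤ d := by
  classical
  choose u hu using h
  have li : LinearIndependent ℤ fun j : {j // rep j ≠ j} => u j := by
    refine Fintype.linearIndependent_iff.2 fun g hg i => ?_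
    have := congrArg (· ⬝ᵥ v i) hg
    simp only [sum_dotProduct, smul_dotProduct, zero_dotProduct, smul_eq_mul] at this
    rw [Finset.sum_eq_single i (fun j _ c => ?_) (by simp)] at this
    · have k := hu i i
      rw [Pi.single_eq_same, Pi.single_eq_of_ne i.2.symm, zero_add] at k
      rwa [← k, mul_one] at this
    · have k := hu j i
      rw [Pi.single_eq_of_ne (fun e => c (Subtype.ext e.symm)),
        Pi.single_eq_of_ne (fun e => i.2 (by rw [e, hr])), zero_add] at k
      rw [← k, mul_zero]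
  simpa using li.fintype_card_le_finrank

end Vale.Agent.P283R.Qt
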